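import Vale.Agent.P089.Bdl.B3

namespace Vale.Agent.Results.P089.BaumConnes

open Vale.Agent.P089.BC

/-- There is a countable group `G` for which the assembly map `μ_0` is not surjective and such
that the reduced group C*-algebra of `G` contains a projection with irrational trace. -/
theorem result : ∃ (G : Type) (_ : Group G), Countable G ∧ (∃ p : ℕ → G →₀ ℚ, IsPlacement p) ∧
    ∀ (H : Type) [NormedAddCommGroup H] [InnerProductSpace ℂ H] [CompleteSpace H]
      (E : Type) [NormedAddCommGroup E] [InnerProductSpace ℂ E] [CompleteSpace E]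
      (b : HilbertBasis G ℂ H) (c : HilbertBasis (G × ℕ) ℂ E),
      (∀ p : ℕ → G →₀ ℚ, IsPlacement p → ¬ AssemblySurjective b c p) ∧ IrrationalTrace b :=
  final

end Vale.Agent.Results.P089.BaumConnes
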