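import Vale.Agent.P089.Bdl.B3
import Vale.Agent.P089.Bdl.B2

namespace Vale.Agent.Results.P089.IrrTrace

open Vale.Agent.P089.BC

/-- There is a countable group `G` such that the reduced group C*-algebra of `G` contains a
projection whose canonical trace `⟨δ₁, P δ₁⟩` is irrational. -/
theorem result : ∃ (G : Type) (_ : Group G), Countable G ∧
    ∀ (H : Type) [NormedAddCommGroup H] [InnerProductSpace ℂ H] [CompleteSpace H]
      (b : HilbertBasis G ℂ H), IrrationalTrace b := by
  obtain ⟨G, hG, hc, P, hP, hPP, hPs, hx, -⟩ := Vale.Agent.P089.opConclusion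
  exact ⟨G, hG, hc, fun H _ _ _ b => irrationalTrace_of b hP hPP hPs hx⟩

end Vale.Agent.Results.P089.IrrTrace
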